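import Vale.Agent.P037.Defs

/-!
Counting ordered copies: shattered label sets give copies of every pattern.
-/

namespace Vale.Agent.P037

open Finset

variable {k n : ℕ} {H : Fin k → Fin k → Bool} {A : Fin n → Fin n → Bool}

lemma card_le_copyCount (X : Finset ((Fin k → Fin n) × (Fin k → Fin n)))
    (hX : ∀ p ∈ X, StrictMono p.1 ∧ StrictMono p.2 ∧ ∀ i j, A (p.1 i) (p.2 j) = H i j) :
    X.card ≤ copyCount H A := by
  classical
  rw [copyCount, Nat.card_eq_fintype_card, Fintype.card_subtype]
  exact Finset.card_le_card fun p hp => Finset.mem_filter.2 ⟨Finset.mem_univ _, hX p hp⟩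

lemma copyCount_pos {r c : Fin k → Fin n} (hr : StrictMono r) (hc : StrictMono c)
    (h : ∀ i j, A (r i) (c j) = H i j) : 1 ≤ copyCount H A := by
  have := card_le_copyCount (H := H) (A := A) {(r, c)} (by simpa using ⟨hr, hc, h⟩)
  simpa using this

/-- The ordered copies inside increasing segments. -/
lemma copies_of_segments (S T : Fin k → Finset (Fin n)) {g h : ℕ} (hS : ∀ i, g ≤ (S i).card)
    (hT : ∀ i, h ≤ (T i).card) (hSo : ∀ i j, i < j → ∀ a ∈ S i, ∀ b ∈ S j, a < b)
    (hTo : ∀ i j, i < j → ∀ a ∈ T i, ∀ b ∈ T j, a < b)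
    (hA : ∀ i j, ∀ a ∈ S i, ∀ b ∈ T j, A a b = H i j) : g ^ k * h ^ k ≤ copyCount H A := by
  classical
  refine le_trans ?_ (card_le_copyCount (Fintype.piFinset S ×ˢ Fintype.piFinset T) fun p hp => ?_)
  · rw [Finset.card_product, Fintype.card_piFinset, Fintype.card_piFinset]
    refine Nat.mul_le_mul ?_ ?_
    · calc g ^ k = ∏ _i : Fin k, g := by simp
        _ ≤ _ := Finset.prod_le_prod' fun i _ => hS i
    · calc h ^ k = ∏ _i : Fin k, h := by simp
        _ ≤ _ := Finset.prod_le_prod' fun i _ => hT i
  · obtain ⟨h1, h2⟩ := Finset.mem_product.1 hp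
    rw [Fintype.mem_piFinset] at h1 h2
    exact ⟨fun i j hij => hSo i j hij _ (h1 i) _ (h1 j), fun i j hij => hTo i j hij _ (h2 i) _ (h2 j),
      fun i j => hA i j _ (h1 i) _ (h2 j)⟩

/-- Size of the shattered set needed for a `k × k` pattern. -/
def patSize (k : ℕ) : ℕ := k * 2 ^ k

/-- The positions, grouped in `k` consecutive blocks indexed by all columns patterns. -/
lemma exists_blocks (k : ℕ) : ∃ E : Fin k × (Fin k → Bool) ≃ Fin (patSize k),
    ∀ l l' : Fin k, l < l' → ∀ f f', E (l, f) < E (l', f') := by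
  let E0 : (Fin k → Bool) ≃ Fin (2 ^ k) := Fintype.equivFinOfCardEq (by simp)
  refine ⟨((Equiv.refl (Fin k)).prodCongr E0).trans finProdFinEquiv, fun l l' hll f f' => ?_⟩
  have h : ((finProdFinEquiv (l, E0 f)) : ℕ) < (finProdFinEquiv (l', E0 f') : ℕ) := by
    simp only [finProdFinEquiv_apply_val]
    have h1 : (l : ℕ) + 1 ≤ l' := hll
    have h2 := Nat.mul_le_mul_left (2 ^ k) h1
    have := (E0 f).isLt
    rw [Nat.mul_add, mul_one] at h2
    omega
  exact h

/-- A label set of size `patSize k`, all with big classes and shattered by many disjoint column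
families, gives many copies of every pattern. -/
theorem copies_of_shattered {α : Type*} [DecidableEq α] (M : α → Fin n → Bool) (σ : Fin n → α)
    (hA : ∀ r c, A r c = M (σ r) c) (e : Fin (patSize k) → α) (he : Function.Injective e)
    {g R : ℕ} (hg : ∀ a, g ≤ (univ.filter fun r => σ r = e a).card)
    (P : Fin R → Finset (Fin n)) (hP : ∀ i j, i ≠ j → Disjoint (P i) (P j))
    (hsh : ∀ i, ∀ u : Fin (patSize k) → Bool, ∃ c ∈ P i, ∀ a, M (e a) c = u a) :
    g ^ patSize k * R ^ k ≤
      copyCount H A * (n ^ (patSize k - k) * (patSize k).factorial * k.factorial) := by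
  classical
  obtain ⟨E, hEmono⟩ := exists_blocks k
  -- rows
  set rows := Fintype.piFinset fun a => univ.filter fun r => σ r = e a with hrows
  have hrc : g ^ (patSize k) ≤ rows.card := by
    rw [hrows, Fintype.card_piFinset]
    calc g ^ (patSize k) = ∏ _a : Fin (patSize k), g := by simp
      _ ≤ _ := Finset.prod_le_prod' fun a _ => hg a
  rcases Nat.eq_zero_or_pos (g ^ (patSize k) * R ^ k) with h0 | h0
  · omega
  have hRk : 0 < R ^ k := Nat.pos_of_mul_pos_left h0
  have hgK : 0 < g ^ (patSize k) := Nat.pos_of_mul_pos_right h0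
  obtain ⟨ω, -, hω⟩ := Finset.exists_max_image (univ : Finset (Equiv.Perm (Fin (patSize k))))
    (fun ω => (rows.filter fun ρ => Tuple.sort ρ = ω).card) ⟨1, Finset.mem_univ _⟩
  set rows' := rows.filter fun ρ => Tuple.sort ρ = ω with hrows'
  have hrc' : g ^ (patSize k) ≤ rows'.card * (patSize k).factorial := by
    refine hrc.trans ?_
    rw [Finset.card_eq_sum_card_fiberwise (t := univ) (f := Tuple.sort)
      (fun ρ _ => Finset.mem_univ _)]
    refine (Finset.sum_le_card_nsmul _ _ _ fun w _ => hω w (Finset.mem_univ _)).trans ?_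
    rw [Finset.card_univ, Fintype.card_perm, Fintype.card_fin, smul_eq_mul, mul_comm]
  -- columns
  choose col hcolP hcol using fun (i : Fin R) (j : Fin k) =>
    hsh i fun a => (E.symm (ω.symm a)).2 j
  set cf : (Fin k → Fin R) → Fin k → Fin n := fun φ j => col (φ j) j with hcf
  have hcoord : ∀ φ j l f, M (e (ω (E (l, f)))) (cf φ j) = f j := fun φ j l f => by
    simp only [hcf]
    rw [hcol]
    simp
  have hcinj : ∀ φ, Function.Injective (cf φ) := fun φ j j' hjj => by
    by_contra hne
    have h1 := hcoord φ j j (fun i => decide (i = j))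
    have h2 := hcoord φ j' j (fun i => decide (i = j))
    rw [hjj, h2] at h1
    simp [Ne.symm hne] at h1
  obtain ⟨π, -, hπ⟩ := Finset.exists_max_image (univ : Finset (Equiv.Perm (Fin k)))
    (fun π => (univ.filter fun φ => Tuple.sort (cf φ) = π).card) ⟨1, Finset.mem_univ _⟩
  set cols := univ.filter fun φ => Tuple.sort (cf φ) = π with hcols
  have hcc : R ^ k ≤ cols.card * k.factorial := by
    have : R ^ k = (univ : Finset (Fin k → Fin R)).card := by simp
    rw [this, Finset.card_eq_sum_card_fiberwise (t := univ) (f := fun φ => Tuple.sort (cf φ))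
      (fun φ _ => Finset.mem_univ _)]
    refine (Finset.sum_le_card_nsmul _ _ _ fun w _ => hπ w (Finset.mem_univ _)).trans ?_
    rw [Finset.card_univ, Fintype.card_perm, Fintype.card_fin, smul_eq_mul, mul_comm]
  set z : Fin k → Fin (patSize k) := fun l => ω (E (l, fun j => H l (π.symm j))) with hz
  set Φr : (Fin (patSize k) → Fin n) → Fin k → Fin n := fun ρ l => ρ (z l) with hΦr
  set Φc : (Fin k → Fin R) → Fin k → Fin n := fun φ => cf φ ∘ π with hΦc
  have hzinj : Function.Injective z := fun l l' h => by
    by_contra hne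
    have h' := ω.injective h
    rcases lt_or_gt_of_ne hne with h1 | h1
    · exact absurd h' (hEmono l l' h1 _ _).ne
    · exact absurd h' (hEmono l' l h1 _ _).ne'
  have hcopy : ∀ p ∈ (rows'.image Φr) ×ˢ (cols.image Φc),
      StrictMono p.1 ∧ StrictMono p.2 ∧ ∀ i j, A (p.1 i) (p.2 j) = H i j := by
    intro p hp
    obtain ⟨hp1, hp2⟩ := Finset.mem_product.1 hp
    obtain ⟨ρ, hρ, e1⟩ := Finset.mem_image.1 hp1
    obtain ⟨φ, hφ, e2⟩ := Finset.mem_image.1 hp2
    obtain ⟨hρ1, hρ2⟩ := Finset.mem_filter.1 hρ
    rw [hrows, Fintype.mem_piFinset] at hρ1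
    have hσ : ∀ a, σ (ρ a) = e a := fun a => (Finset.mem_filter.1 (hρ1 a)).2
    have hρi : Function.Injective ρ := fun a b hab => he (by rw [← hσ a, hab, hσ b])
    refine ⟨?_, ?_, fun i j => ?_⟩
    · have hs : StrictMono (ρ ∘ ω) :=
        (hρ2 ▸ Tuple.monotone_sort ρ).strictMono_of_injective (hρi.comp ω.injective)
      rw [← e1]
      exact fun l l' hll => hs (hEmono l l' hll _ _)
    · rw [← e2]
      exact ((Finset.mem_filter.1 hφ).2 ▸ Tuple.monotone_sort (cf φ)).strictMono_of_injective
        ((hcinj φ).comp π.injective)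
    · rw [← e1, ← e2]
      simp only [hΦr, hΦc, hz, Function.comp_apply]
      rw [hA, hσ, hcoord]
      simp
  have hN := card_le_copyCount _ hcopy
  rw [Finset.card_product] at hN
  have hci : cols.card ≤ (cols.image Φc).card := by
    refine le_of_eq (Finset.card_image_of_injective _ fun φ φ' h => funext fun j => ?_).symm
    have h1 : col (φ j) j = col (φ' j) j := by simpa [hΦc, hcf] using congrFun h (π.symm j)
    by_contra hne
    exact Finset.disjoint_left.1 (hP _ _ hne) (hcolP (φ j) j) (h1 ▸ hcolP (φ' j) j)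
  have hri : rows'.card ≤ n ^ ((patSize k) - k) * (rows'.image Φr).card := by
    refine Finset.card_le_mul_card_image _ _ fun r _ => ?_
    set Z := (univ.image z)ᶜ with hZ
    have hZc : Z.card = (patSize k) - k := by
      rw [hZ, Finset.card_compl, Fintype.card_fin, Finset.card_image_of_injective _ hzinj,
        Finset.card_univ, Fintype.card_fin]
    calc _ ≤ (univ : Finset (Z → Fin n)).card := by
          refine Finset.card_le_card_of_injOn (fun ρ a => ρ a.1) (fun _ _ => Finset.mem_univ _)
            fun ρ hρ ρ' hρ' h => funext fun a => ?_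
          by_cases ha : a ∈ Z
          · exact congrFun h ⟨a, ha⟩
          · simp only [hZ, Finset.mem_compl, not_not, Finset.mem_image, Finset.mem_univ,
              true_and] at ha
            obtain ⟨l, rfl⟩ := ha
            simp only [Finset.coe_filter, Set.mem_setOf_eq] at hρ hρ'
            have h1 := congrFun hρ.2 l
            have h2 := congrFun hρ'.2 l
            simp only [hΦr] at h1 h2
            rw [h1, h2]
      _ = n ^ ((patSize k) - k) := by rw [Finset.card_univ, Fintype.card_fun, Fintype.card_fin,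
          Fintype.card_coe, hZc]
  calc g ^ (patSize k) * R ^ k
      ≤ (n ^ ((patSize k) - k) * (rows'.image Φr).card * (patSize k).factorial) *
          ((cols.image Φc).card * k.factorial) :=
        Nat.mul_le_mul (hrc'.trans (Nat.mul_le_mul_right _ hri))
          (hcc.trans (Nat.mul_le_mul_right _ hci))
    _ = (rows'.image Φr).card * (cols.image Φc).card *
          (n ^ ((patSize k) - k) * (patSize k).factorial * k.factorial) := by ring
    _ ≤ _ := Nat.mul_le_mul_right _ hN

end Vale.Agent.P037
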