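import Mathlib

/-!
Ordered copies, distances and row complexity of binary matrices.
-/

namespace Vale.Agent.P037

/-- The number of ordered copies of `H` in `A`. -/
noncomputable def copyCount {k n : ℕ} (H : Fin k → Fin k → Bool) (A : Fin n → Fin n → Bool) : ℕ :=
  Nat.card {p : (Fin k → Fin n) × (Fin k → Fin n) //
    StrictMono p.1 ∧ StrictMono p.2 ∧ ∀ i j, A (p.1 i) (p.2 j) = H i j}

/-- The number of entries in which two matrices differ. -/
noncomputable def diffCount {n : ℕ} (A B : Fin n → Fin n → Bool) : ℕ :=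
  Nat.card {rc : Fin n × Fin n // A rc.1 rc.2 ≠ B rc.1 rc.2}

/-- The number of distinct rows. -/
noncomputable def rowKinds {n : ℕ} (A : Fin n → Fin n → Bool) : ℕ :=
  Nat.card (Set.range A)

/-- Every matrix without an ordered copy of `H` differs from `A` in at least `ε n²` entries. -/
def Far {k n : ℕ} (H : Fin k → Fin k → Bool) (ε : ℝ) (A : Fin n → Fin n → Bool) : Prop :=
  ∀ B : Fin n → Fin n → Bool, copyCount H B = 0 → ε * (n : ℝ) ^ 2 ≤ (diffCount A B : ℝ)

end Vale.Agent.P037
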