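import Vale.Agent.P037.Count

/-!
Few distinct rows: either the columns have few kinds, up to few exceptions, or many disjoint
families of columns shatter a common set of rows.
-/

namespace Vale.Agent.P037

open Finset

/-- Greedy choice of disjoint families with pairwise different values. -/
lemma greedy {ι β : Type*} [Fintype ι] [DecidableEq ι] [DecidableEq β] (τ : ι → β) (T : ℕ) :
    ∀ R : ℕ, (∃ 𝒯 : Finset β, 𝒯.card ≤ T ∧ (univ.filter fun c => τ c ∉ 𝒯).card ≤ R * (T + 1)) ∨
      ∃ P : Fin R → Finset ι, (∀ i j, i ≠ j → Disjoint (P i) (P j)) ∧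
        ∀ i, (P i).card = T + 1 ∧ Set.InjOn τ (P i : Set ι) := by
  intro R
  induction R with
  | zero => exact Or.inr ⟨fun i => i.elim0, fun i => i.elim0, fun i => i.elim0⟩
  | succ R ih =>
    rcases ih with ⟨𝒯, h1, h2⟩ | ⟨P, hP, hP2⟩
    · exact Or.inl ⟨𝒯, h1, h2.trans (Nat.mul_le_mul_right _ (Nat.le_succ R))⟩
    set U := (univ.biUnion P)ᶜ with hU
    by_cases hc : (U.image τ).card ≤ T
    · refine Or.inl ⟨U.image τ, hc, ?_⟩
      calc _ ≤ (univ.biUnion P).card := Finset.card_le_card fun c hc => by
              by_contra hcU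
              exact (Finset.mem_filter.1 hc).2
                (Finset.mem_image_of_mem τ (by rw [hU, Finset.mem_compl]; exact hcU))
        _ ≤ (univ : Finset (Fin R)).card * (T + 1) :=
            Finset.card_biUnion_le_card_mul _ _ _ fun i _ => (hP2 i).1.le
        _ ≤ (R + 1) * (T + 1) := by
            rw [Finset.card_univ, Fintype.card_fin]; exact Nat.mul_le_mul_right _ (Nat.le_succ R)
    · obtain ⟨V, hV, hVc⟩ := Finset.exists_subset_card_eq (show T + 1 ≤ (U.image τ).card by omega)
      have hex : ∀ v : V, ∃ c ∈ U, τ c = v := fun v => Finset.mem_image.1 (hV v.2)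
      choose sec hsecU hsecτ using hex
      set Q := (univ : Finset V).image sec with hQ
      have hsinj : Function.Injective sec := fun a b h => by
        apply Subtype.ext
        rw [← hsecτ a, h, hsecτ b]
      have hQd : ∀ i, Disjoint Q (P i) := fun i => Finset.disjoint_left.2 fun c hc hcP => by
        obtain ⟨v, -, rfl⟩ := Finset.mem_image.1 hc
        have := hsecU v
        rw [hU, Finset.mem_compl] at this
        exact this (Finset.mem_biUnion.2 ⟨i, Finset.mem_univ _, hcP⟩)
      refine Or.inr ⟨Fin.cons Q P, fun i j hij => ?_, fun i => ?_⟩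
      · cases i using Fin.cases with
        | zero =>
          cases j using Fin.cases with
          | zero => exact absurd rfl hij
          | succ j => simpa using hQd j
        | succ i =>
          cases j using Fin.cases with
          | zero => simpa using (hQd i).symm
          | succ j => simpa using hP i j (fun h => hij (by rw [h]))
      · cases i using Fin.cases with
        | zero =>
          simp only [Fin.cons_zero]
          refine ⟨by rw [hQ, Finset.card_image_of_injective _ hsinj, Finset.card_univ,
            Fintype.card_coe, hVc], fun a ha b hb h => ?_⟩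
          obtain ⟨u, -, rfl⟩ := Finset.mem_image.1 (Finset.mem_coe.1 ha)
          obtain ⟨v, -, rfl⟩ := Finset.mem_image.1 (Finset.mem_coe.1 hb)
          rw [hsecτ, hsecτ] at h
          rw [Subtype.ext h]
        | succ i => simpa using hP2 i

/-- A family larger than the Sauer bound shatters a set of size `K`. -/
lemma exists_shatters {α : Type*} [Fintype α] [DecidableEq α] (𝒜 : Finset (Finset α)) (K : ℕ)
    (h : K * (Fintype.card α + 1) ^ K < 𝒜.card) : ∃ D, 𝒜.Shatters D ∧ D.card = K := by
  by_contra hno
  push Not at hno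
  have hsub : 𝒜.shatterer ⊆ (range K).biUnion fun i => powersetCard i univ := fun D hD => by
    rw [mem_shatterer] at hD
    refine Finset.mem_biUnion.2 ⟨D.card, Finset.mem_range.2 ?_,
      Finset.mem_powersetCard.2 ⟨Finset.subset_univ _, rfl⟩⟩
    by_contra hK
    obtain ⟨D', hD', hc⟩ := Finset.exists_subset_card_eq (not_lt.1 hK)
    exact hno D' (hD.mono_right hD') hc
  have h2 := (Finset.card_le_card_shatterer 𝒜).trans ((Finset.card_le_card hsub).trans
    (Finset.card_biUnion_le_card_mul _ _ ((Fintype.card α + 1) ^ K) fun i hi => ?_))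
  · rw [Finset.card_range] at h2; omega
  · rw [Finset.card_powersetCard, Finset.card_univ]
    exact (Nat.choose_le_pow _ _).trans ((Nat.pow_le_pow_left (Nat.le_succ _) i).trans
      (Nat.pow_le_pow_right (Nat.succ_pos _) (Finset.mem_range.1 hi).le))

/-- Many families with pairwise different traces give many copies. -/
lemma copies_of_families {k n : ℕ} (H : Fin k → Fin k → Bool) {A : Fin n → Fin n → Bool}
    {α : Type*} [Fintype α] [DecidableEq α] (M : α → Fin n → Bool) (σ : Fin n → α)
    (hA : ∀ r c, A r c = M (σ r) c) (big : Finset α) {g : ℕ}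
    (hbig : ∀ x ∈ big, g ≤ (univ.filter fun r => σ r = x).card)
    (P : Fin g → Finset (Fin n)) (hP : ∀ i j, i ≠ j → Disjoint (P i) (P j))
    (hP2 : ∀ i, (P i).card = patSize k * (Fintype.card α + 1) ^ patSize k + 1 ∧
      Set.InjOn (fun c => big.filter fun x => M x c) (P i : Set (Fin n))) :
    g ^ (patSize k + k) ≤ copyCount H A * (((Fintype.card α + 1) ^ patSize k) ^ k *
      (n ^ (patSize k - k) * (patSize k).factorial * k.factorial)) := by
  classical
  set τ := fun c => big.filter fun x => M x c with hτ
  have hex : ∀ i, ∃ D, ((P i).image τ).Shatters D ∧ D.card = patSize k := fun i =>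
    exists_shatters _ _ (by
      rw [Finset.card_image_of_injOn (hP2 i).2, (hP2 i).1]; exact Nat.lt_succ_self _)
  choose D hD hDc using hex
  rcases Nat.eq_zero_or_pos g with rfl | hg
  · have hK : (patSize k + k = 0) ∨ 0 < patSize k + k := Nat.eq_zero_or_pos _
    rcases hK with hK | hK
    · obtain rfl : k = 0 := by omega
      have h1 : 1 ≤ copyCount H A := copyCount_pos (r := fun i => i.elim0) (c := fun i => i.elim0)
        (fun i => i.elim0) (fun i => i.elim0) (fun i => i.elim0)
      simp [patSize]
      omega
    · rw [zero_pow hK.ne']; exact Nat.zero_le _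
  have hne : (powersetCard (patSize k) (univ : Finset α)).Nonempty :=
    ⟨D ⟨0, hg⟩, Finset.mem_powersetCard.2 ⟨Finset.subset_univ _, hDc _⟩⟩
  obtain ⟨D0, hD0, hmax⟩ := Finset.exists_max_image _
    (fun D0 => (univ.filter fun i => D i = D0).card) hne
  set I := univ.filter fun i => D i = D0 with hI
  set L := (Fintype.card α + 1) ^ patSize k with hL
  have hgI : g ≤ L * I.card := by
    calc g = (univ : Finset (Fin g)).card := by simp
      _ = ∑ D' ∈ powersetCard (patSize k) (univ : Finset α), (univ.filter fun i => D i = D').card :=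
          Finset.card_eq_sum_card_fiberwise fun i _ =>
            Finset.mem_powersetCard.2 ⟨Finset.subset_univ _, hDc _⟩
      _ ≤ (powersetCard (patSize k) (univ : Finset α)).card * I.card :=
          (Finset.sum_le_card_nsmul _ _ _ hmax).trans (by simp)
      _ ≤ L * I.card := Nat.mul_le_mul_right _ (by
          rw [Finset.card_powersetCard, Finset.card_univ]
          exact (Nat.choose_le_pow _ _).trans (Nat.pow_le_pow_left (Nat.le_succ _) _))
  have hI0 : 0 < I.card := Nat.pos_of_ne_zero fun h => by rw [h] at hgI; omega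
  obtain ⟨i0, hi0⟩ := Finset.card_pos.1 hI0
  have hD0c : D0.card = patSize k := (Finset.mem_powersetCard.1 hD0).2
  have hD0b : D0 ⊆ big := by
    obtain ⟨t, ht, hsub⟩ := ((Finset.mem_filter.1 hi0).2 ▸ hD i0).exists_superset
    obtain ⟨c, -, rfl⟩ := Finset.mem_image.1 ht
    exact hsub.trans (Finset.filter_subset _ _)
  set en := (Finset.equivFinOfCardEq hD0c).symm with hen
  set e : Fin (patSize k) → α := fun a => (en a : α) with he
  have hei : Function.Injective e := Subtype.val_injective.comp en.injective
  set idx : Fin I.card → Fin g := fun i => ((Finset.equivFinOfCardEq rfl).symm i : I) with hidx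
  have hidxi : Function.Injective idx := Subtype.val_injective.comp (Equiv.injective _)
  have key := copies_of_shattered (H := H) M σ hA e hei (g := g) (R := I.card)
    (fun a => hbig _ (hD0b (en a).2)) (fun i => P (idx i))
    (fun i j hij => hP _ _ (hidxi.ne hij)) (fun i u => ?_)
  · calc g ^ (patSize k + k) = g ^ patSize k * g ^ k := pow_add _ _ _
      _ ≤ g ^ patSize k * (L * I.card) ^ k :=
          Nat.mul_le_mul_left _ (Nat.pow_le_pow_left hgI k)
      _ = L ^ k * (g ^ patSize k * I.card ^ k) := by rw [mul_pow]; ring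
      _ ≤ L ^ k * (copyCount H A *
          (n ^ (patSize k - k) * (patSize k).factorial * k.factorial)) :=
          Nat.mul_le_mul_left _ key
      _ = _ := by ring
  · have hiI : idx i ∈ I := ((Finset.equivFinOfCardEq (rfl : I.card = I.card)).symm i).2
    have hsh : ((P (idx i)).image τ).Shatters D0 := (Finset.mem_filter.1 hiI).2 ▸ hD (idx i)
    obtain ⟨t, ht, hteq⟩ := hsh (t := (univ.filter fun a => u a = true).image e) (fun x hx => by
      obtain ⟨a, -, rfl⟩ := Finset.mem_image.1 hx; exact (en a).2)
    obtain ⟨c, hc, rfl⟩ := Finset.mem_image.1 ht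
    refine ⟨c, hc, fun a => ?_⟩
    have h1 : e a ∈ D0 ∩ τ c ↔ M (e a) c = true := by
      simp [hτ, Finset.mem_inter, show e a ∈ D0 from (en a).2, hD0b (show e a ∈ D0 from (en a).2)]
    rw [hteq] at h1
    have h2 : e a ∈ (univ.filter fun a => u a = true).image e ↔ u a = true := by
      rw [Finset.mem_image]
      exact ⟨fun ⟨b, hb, hbe⟩ => hei hbe ▸ (Finset.mem_filter.1 hb).2,
        fun h => ⟨a, Finset.mem_filter.2 ⟨Finset.mem_univ _, h⟩, rfl⟩⟩
    exact Bool.eq_iff_iff.2 (h1.symm.trans h2)

end Vale.Agent.P037
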