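import Vale.Agent.P037.Peel
import Vale.Agent.P037.Shatter

/-!
Polynomial removal for matrices with few distinct rows or few distinct columns.
-/

namespace Vale.Agent.P037

open Finset

variable {k n : ℕ}

/-- A monotone retraction onto a nonempty set. -/
lemma exists_retraction (K0 : Finset (Fin n)) (h : K0.Nonempty) :
    ∃ π : Fin n → Fin n, Monotone π ∧ (∀ r, π r ∈ K0) ∧ ∀ r ∈ K0, π r = r := by
  classical
  set S := fun r => insert (K0.min' h) (K0.filter fun a => a ≤ r) with hS
  have hne : ∀ r, (S r).Nonempty := fun r => Finset.insert_nonempty _ _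
  have hsub : ∀ r, S r ⊆ K0 := fun r =>
    Finset.insert_subset (Finset.min'_mem _ h) (Finset.filter_subset _ _)
  refine ⟨fun r => (S r).max' (hne r), fun a b hab => ?_, fun r => hsub r (Finset.max'_mem _ _),
    fun r hr => ?_⟩
  · refine Finset.max'_subset (hne a) fun x hx => ?_
    simp only [hS, Finset.mem_insert, Finset.mem_filter] at hx ⊢
    rcases hx with hx | ⟨hx1, hx2⟩
    · exact Or.inl hx
    · exact Or.inr ⟨hx1, hx2.trans hab⟩
  · show (S r).max' (hne r) = r
    refine le_antisymm (Finset.max'_le _ (hne r) r fun x hx => ?_) (Finset.le_max' _ r ?_)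
    · simp only [hS, Finset.mem_insert, Finset.mem_filter] at hx
      rcases hx with rfl | ⟨-, hx2⟩
      · exact Finset.min'_le _ _ hr
      · exact hx2
    · simp [hS, hr]

lemma diffCount_eq (A B : Fin n → Fin n → Bool) :
    diffCount A B = (univ.filter fun rc : Fin n × Fin n => A rc.1 rc.2 ≠ B rc.1 rc.2).card := by
  classical
  rw [diffCount, Nat.card_eq_fintype_card, Fintype.card_subtype]

lemma exists_copy {H : Fin k → Fin k → Bool} {A : Fin n → Fin n → Bool}
    (h : copyCount H A ≠ 0) : ∃ r c : Fin k → Fin n, StrictMono r ∧ StrictMono c ∧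
      ∀ i j, A (r i) (c j) = H i j := by
  obtain ⟨⟨⟨⟨r, c⟩, h'⟩⟩, -⟩ := Nat.card_ne_zero.1 h
  exact ⟨r, c, h'⟩

/-- The modified matrix obtained from cleaned rows and columns either is free or gives many
copies. -/
lemma copies_of_cleaning {H : Fin k → Fin k → Bool} {A : Fin n → Fin n → Bool}
    {α : Type*} [Fintype α] [DecidableEq α] (M : α → Fin n → Bool) (σ : Fin n → α)
    (hA : ∀ r c, A r c = M (σ r) c) (big : Finset α) (g : ℕ)
    (Dr Dc : Finset (Fin n)) (hrn : Dr.card < n) (hcn : Dc.card < n)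
    (hDr : ∀ p : Fin k → Fin n, Monotone p → (∀ i, p i ∉ Dr) →
      (∀ i, σ (p i) ∈ big) ∧ ∃ S : Fin k → Finset (Fin n), (∀ i, g ≤ (S i).card) ∧
        (∀ i, ∀ a ∈ S i, σ a = σ (p i)) ∧ ∀ i j, i < j → ∀ a ∈ S i, ∀ b ∈ S j, a < b)
    (hDc : ∀ q : Fin k → Fin n, Monotone q → (∀ i, q i ∉ Dc) →
      ∃ T : Fin k → Finset (Fin n), (∀ i, g ≤ (T i).card) ∧
        (∀ i, ∀ b ∈ T i, (big.filter fun x => M x b) = big.filter fun x => M x (q i)) ∧
          ∀ i j, i < j → ∀ a ∈ T i, ∀ b ∈ T j, a < b)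
    {ε : ℝ} (hfar : Far H ε A) (hsmall : ((Dr.card + Dc.card : ℕ) : ℝ) < ε * n) :
    g ^ k * g ^ k ≤ copyCount H A := by
  classical
  have hn : 0 < n := by omega
  obtain ⟨π, hπ, hπm, hπid⟩ := exists_retraction Drᶜ (Finset.card_pos.1 (by
    rw [Finset.card_compl, Fintype.card_fin]; omega))
  obtain ⟨π', hπ', hπ'm, hπ'id⟩ := exists_retraction Dcᶜ (Finset.card_pos.1 (by
    rw [Finset.card_compl, Fintype.card_fin]; omega))
  set B := fun r c => A (π r) (π' c) with hB
  have hdiff : diffCount A B ≤ (Dr.card + Dc.card) * n := by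
    rw [diffCount_eq]
    refine (Finset.card_le_card (t := Dr ×ˢ univ ∪ univ ×ˢ Dc) fun rc hrc => ?_).trans ?_
    · have h := (Finset.mem_filter.1 hrc).2
      by_contra hno
      simp only [Finset.mem_union, Finset.mem_product, Finset.mem_univ, and_true, true_and,
        not_or] at hno
      refine h ?_
      simp only [hB, hπid _ (Finset.mem_compl.2 hno.1), hπ'id _ (Finset.mem_compl.2 hno.2)]
    · refine (Finset.card_union_le _ _).trans (le_of_eq ?_)
      simp [Finset.card_product]; ring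
  by_cases h0 : copyCount H B = 0
  · exfalso
    have h1 := hfar B h0
    have h2 : (diffCount A B : ℝ) ≤ ((Dr.card + Dc.card : ℕ) : ℝ) * n := by exact_mod_cast hdiff
    have h3 : ((Dr.card + Dc.card : ℕ) : ℝ) * n < ε * n * n :=
      mul_lt_mul_of_pos_right hsmall (by exact_mod_cast hn)
    nlinarith
  obtain ⟨r, c, hr, hc, hH⟩ := exists_copy h0
  obtain ⟨hbig, S, hS1, hS2, hS3⟩ := hDr (fun i => π (r i)) (hπ.comp hr.monotone)
    fun i => Finset.mem_compl.1 (hπm _)
  obtain ⟨T, hT1, hT2, hT3⟩ := hDc (fun i => π' (c i)) (hπ'.comp hc.monotone)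
    fun i => Finset.mem_compl.1 (hπ'm _)
  refine copies_of_segments S T hS1 hT1 hS3 hT3 fun i j a ha b hb => ?_
  rw [← hH i j]
  simp only [hB]
  rw [hA, hA, hS2 i a ha]
  have h := Finset.ext_iff.1 (hT2 j b hb) (σ (π (r i)))
  simp only [Finset.mem_filter, hbig i, true_and] at h
  exact Bool.eq_iff_iff.2 h

/-- Bound on the number of exceptional kinds of columns. -/
def kindBound (k s : ℕ) : ℕ := patSize k * (s + 1) ^ patSize k

/-- The scale of the cleaning. -/
def scaleQ (k s : ℕ) : ℕ := 10 * (k + 1) * (kindBound k s + s + 3) ^ (k + 1)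

lemma patSize_ge (k : ℕ) : k ≤ patSize k := Nat.le_mul_of_pos_right k (Nat.pow_pos (by norm_num))

/-- The estimate for a matrix given by `s` kinds of rows. -/
theorem core {H : Fin k → Fin k → Bool} {A : Fin n → Fin n → Bool}
    {α : Type*} [Fintype α] [DecidableEq α] (M : α → Fin n → Bool) (σ : Fin n → α)
    (hA : ∀ r c, A r c = M (σ r) c) {s : ℕ} (hs : Fintype.card α ≤ s)
    {ε : ℝ} (hn : 1 ≤ n) (hε : 0 < ε) (hε1 : ε < 1) (hfar : Far H ε A) :
    (ε / (2 * scaleQ k s)) ^ (2 * k + patSize k) * (n : ℝ) ^ (2 * k) ≤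
      (copyCount H A : ℝ) * (((s + 1) ^ patSize k) ^ k * (patSize k).factorial * k.factorial : ℕ) :=
    by
  classical
  set K := patSize k with hK
  set Q := scaleQ k s with hQ
  set Λ := ((s + 1) ^ K) ^ k * K.factorial * k.factorial with hΛ
  have hΛ1 : 1 ≤ Λ := Nat.one_le_iff_ne_zero.2 (mul_ne_zero (mul_ne_zero
    (pow_ne_zero _ (pow_ne_zero _ (Nat.succ_ne_zero s))) (Nat.factorial_ne_zero _))
    (Nat.factorial_ne_zero _))
  have hQ1 : 1 ≤ Q := Nat.one_le_iff_ne_zero.2 (mul_ne_zero (mul_ne_zero (by norm_num)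
    (Nat.succ_ne_zero k)) (pow_ne_zero _ (by omega)))
  have hQr : (1 : ℝ) ≤ Q := by exact_mod_cast hQ1
  set y := ε / (2 * (Q : ℝ)) with hy
  have hy0 : 0 < y := by positivity
  have hy1 : y ≤ 1 := by rw [hy, div_le_one (by positivity)]; linarith
  have hn0 : (0 : ℝ) < n := by exact_mod_cast hn
  have hΛr : (1 : ℝ) ≤ (Λ : ℝ) := by exact_mod_cast hΛ1
  set g := ⌊ε * n / Q⌋₊ with hg
  rcases Nat.eq_zero_or_pos g with hg0 | hg0
  · -- tiny matrices
    have h1 : 1 ≤ copyCount H A := by
      by_contra h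
      have := hfar A (by omega)
      rw [show diffCount A A = 0 by simp [diffCount]] at this
      push_cast at this
      nlinarith [mul_pos hε (pow_pos hn0 2)]
    have h2 : ε * n / Q < 1 := Nat.floor_eq_zero.1 hg0
    have h3 : y * n ≤ 1 := by
      have : y * n = ε * n / Q / 2 := by rw [hy]; field_simp
      linarith
    calc y ^ (2 * k + K) * (n : ℝ) ^ (2 * k) = y ^ K * (y * n) ^ (2 * k) := by
          rw [pow_add, mul_pow]; ring
      _ ≤ 1 * 1 := mul_le_mul (pow_le_one₀ hy0.le hy1) (pow_le_one₀ (by positivity) h3)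
          (by positivity) zero_le_one
      _ ≤ (copyCount H A : ℝ) * (Λ : ℝ) :=
          mul_le_mul (by exact_mod_cast h1) hΛr zero_le_one (Nat.cast_nonneg _)
  have hgle : (g : ℝ) * Q ≤ ε * n := by
    rw [← le_div_iff₀ (by linarith)]
    exact Nat.floor_le (by positivity)
  have hgge : y * n ≤ g := by
    have h1 : ε * n / Q < g + 1 := Nat.lt_floor_add_one _
    have h2 : y * n = ε * n / Q / 2 := by rw [hy]; field_simp
    have h3 : (1 : ℝ) ≤ g := by exact_mod_cast hg0
    linarith
  have hgn : g ≤ n := by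
    have h1 : (g : ℝ) * 1 ≤ ε * n := le_trans (by gcongr) hgle
    have h2 : ε * n ≤ 1 * n := mul_le_mul_of_nonneg_right hε1.le hn0.le
    have : (g : ℝ) ≤ n := by linarith
    exact_mod_cast this
  set big := univ.filter fun x => g ≤ (univ.filter fun r => σ r = x).card with hbigdef
  set τ := fun c => big.filter fun x => M x c with hτ
  set T := kindBound k (Fintype.card α) with hT
  rcases greedy τ T g with ⟨𝒯, hTc, hTcov⟩ | ⟨P, hP, hP2⟩
  · -- few kinds of columns
    set small := univ.filter fun r => σ r ∉ big with hsmalldef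
    obtain ⟨D1, hD1, hgood1⟩ := peel σ g k 0
    set σ' : Fin n → Option 𝒯 := fun c => if h : τ c ∈ 𝒯 then some ⟨τ c, h⟩ else none with hσ'
    set other := univ.filter fun c => τ c ∉ 𝒯 with hother
    obtain ⟨D2, hD2, hgood2⟩ := peel σ' g k 0
    have hsm : small.card ≤ Fintype.card α * g := by
      calc small.card ≤ ((univ.filter fun x => x ∉ big).biUnion
            fun x => univ.filter fun r => σ r = x).card := Finset.card_le_card fun r hr => by
            refine Finset.mem_biUnion.2 ⟨σ r, Finset.mem_filter.2 ⟨Finset.mem_univ _, ?_⟩, by simp⟩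
            exact (Finset.mem_filter.1 hr).2
        _ ≤ (univ.filter fun x => x ∉ big).card * g :=
            Finset.card_biUnion_le_card_mul _ _ _ fun x hx => by
              have := (Finset.mem_filter.1 hx).2
              simp only [hbigdef, Finset.mem_filter, Finset.mem_univ, true_and, not_le] at this
              exact this.le
        _ ≤ Fintype.card α * g := Nat.mul_le_mul_right _ (Finset.card_le_univ _)
    have hopt : Fintype.card (Option 𝒯) + 1 ≤ kindBound k s + s + 3 := by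
      rw [Fintype.card_option, Fintype.card_coe]
      have : T ≤ kindBound k s := Nat.mul_le_mul_left _ (Nat.pow_le_pow_left (by omega) _)
      omega
    have hTs : T + 1 ≤ kindBound k s + s + 3 := by
      have : T ≤ kindBound k s := Nat.mul_le_mul_left _ (Nat.pow_le_pow_left (by omega) _)
      omega
    set U := kindBound k s + s + 3 with hU
    have hUk : U ^ k ≤ U ^ (k + 1) := Nat.pow_le_pow_right (by omega) (Nat.le_succ k)
    have hU1 : U ≤ U ^ (k + 1) := Nat.le_self_pow (Nat.succ_ne_zero k) U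
    have hr5 : (small ∪ D1).card * 5 ≤ g * Q := by
      have h1 : D1.card ≤ k * U ^ (k + 1) * g := hD1.trans (Nat.mul_le_mul_right _
        (Nat.mul_le_mul_left _ ((Nat.pow_le_pow_left (by omega) k).trans hUk)))
      have h2 : small.card ≤ U ^ (k + 1) * g :=
        hsm.trans (Nat.mul_le_mul_right _ ((show Fintype.card α ≤ U by omega).trans hU1))
      have h3 := Finset.card_union_le small D1
      have h4 : g * Q = 10 * ((k + 1) * U ^ (k + 1) * g) := by rw [hQ, scaleQ]; ring
      have h5 : (k + 1) * U ^ (k + 1) * g = k * U ^ (k + 1) * g + U ^ (k + 1) * g := by ring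
      omega
    have hc5 : (other ∪ D2).card * 5 ≤ g * Q := by
      have h1 : D2.card ≤ k * U ^ (k + 1) * g := hD2.trans (Nat.mul_le_mul_right _
        (Nat.mul_le_mul_left _ ((Nat.pow_le_pow_left hopt k).trans hUk)))
      have h2 : other.card ≤ U ^ (k + 1) * g := by
        refine hTcov.trans ?_
        rw [mul_comm]
        exact Nat.mul_le_mul_right _ (hTs.trans hU1)
      have h3 := Finset.card_union_le other D2
      have h4 : g * Q = 10 * ((k + 1) * U ^ (k + 1) * g) := by rw [hQ, scaleQ]; ring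
      have h5 : (k + 1) * U ^ (k + 1) * g = k * U ^ (k + 1) * g + U ^ (k + 1) * g := by ring
      omega
    have hr5' : ((small ∪ D1).card : ℝ) * 5 ≤ ε * n :=
      le_trans (by exact_mod_cast hr5) hgle
    have hc5' : ((other ∪ D2).card : ℝ) * 5 ≤ ε * n :=
      le_trans (by exact_mod_cast hc5) hgle
    have hεn : ε * n < n := mul_lt_of_lt_one_left hn0 hε1
    have hN := copies_of_cleaning (H := H) M σ hA big g (small ∪ D1) (other ∪ D2)
      (by
        have : ((small ∪ D1).card : ℝ) < n := by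
          linarith [(Nat.cast_nonneg (small ∪ D1).card : (0:ℝ) ≤ _)]
        exact_mod_cast this)
      (by
        have : ((other ∪ D2).card : ℝ) < n := by
          linarith [(Nat.cast_nonneg (other ∪ D2).card : (0:ℝ) ≤ _)]
        exact_mod_cast this)
      (fun p hp hpD => by
        refine ⟨fun i => ?_, ?_⟩
        · have := hpD i
          simp only [hsmalldef, Finset.mem_union, Finset.mem_filter, Finset.mem_univ, true_and,
            not_or, not_not] at this
          exact this.1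
        · obtain ⟨S, hS1, hS2, hS3⟩ := hgood1 p hp
            (fun i h => hpD i (Finset.mem_union_right _ h)) fun i => Nat.zero_le _
          exact ⟨S, hS1, fun i a ha => (hS2 i a ha).1, hS3⟩)
      (fun q hq hqD => by
        obtain ⟨S, hS1, hS2, hS3⟩ := hgood2 q hq
          (fun i h => hqD i (Finset.mem_union_right _ h)) fun i => Nat.zero_le _
        refine ⟨S, hS1, fun i b hb => ?_, hS3⟩
        have h1 : τ (q i) ∈ 𝒯 := by
          have := hqD i
          simp only [hother, Finset.mem_union, Finset.mem_filter, Finset.mem_univ, true_and,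
            not_or, not_not] at this
          exact this.1
        have h2 := (hS2 i b hb).1
        simp only [hσ', dif_pos h1] at h2
        by_cases h3 : τ b ∈ 𝒯
        · rw [dif_pos h3, Option.some.injEq, Subtype.mk.injEq] at h2
          exact h2
        · rw [dif_neg h3] at h2
          exact absurd h2 (by simp))
      hfar (by push_cast; linarith [mul_pos hε hn0])
    calc y ^ (2 * k + K) * (n : ℝ) ^ (2 * k) = y ^ K * (y * n) ^ (2 * k) := by
          rw [pow_add, mul_pow]; ring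
      _ ≤ 1 * (g : ℝ) ^ (2 * k) := mul_le_mul (pow_le_one₀ hy0.le hy1)
          (pow_le_pow_left₀ (by positivity) hgge _) (by positivity) zero_le_one
      _ ≤ (copyCount H A : ℝ) * (Λ : ℝ) := by
          have h' : (g : ℝ) ^ k * (g : ℝ) ^ k ≤ (copyCount H A : ℝ) := by exact_mod_cast hN
          rw [one_mul, two_mul, pow_add]
          exact h'.trans (le_mul_of_one_le_right (Nat.cast_nonneg _) hΛr)
  · -- many families of columns with pairwise different traces
    have hN := copies_of_families H M σ hA big (fun x hx => (Finset.mem_filter.1 hx).2) P hP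
      fun i => ⟨(hP2 i).1, (hP2 i).2⟩
    have hN' : g ^ (K + k) ≤ copyCount H A * (Λ * n ^ (K - k)) := by
      refine hN.trans (Nat.mul_le_mul_left _ ?_)
      have hL : ((Fintype.card α + 1) ^ K) ^ k ≤ ((s + 1) ^ K) ^ k :=
        Nat.pow_le_pow_left (Nat.pow_le_pow_left (by omega) _) _
      calc ((Fintype.card α + 1) ^ K) ^ k * (n ^ (K - k) * K.factorial * k.factorial)
          ≤ ((s + 1) ^ K) ^ k * (n ^ (K - k) * K.factorial * k.factorial) :=
            Nat.mul_le_mul_right _ hL
        _ = Λ * n ^ (K - k) := by rw [hΛ]; ring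
    have h1 : (y * n) ^ (K + k) ≤ (copyCount H A : ℝ) * ((Λ : ℝ) * (n : ℝ) ^ (K - k)) :=
      (pow_le_pow_left₀ (by positivity) hgge _).trans (by exact_mod_cast hN')
    have hkK : k ≤ K := patSize_ge k
    have h2 : y ^ (K + k) * (n : ℝ) ^ (2 * k) * (n : ℝ) ^ (K - k) ≤
        (copyCount H A : ℝ) * (Λ : ℝ) * (n : ℝ) ^ (K - k) := by
      rw [mul_assoc, ← pow_add, show 2 * k + (K - k) = K + k by omega, ← mul_pow, mul_assoc]
      exact h1
    have h3 := le_of_mul_le_mul_right h2 (by positivity)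
    calc y ^ (2 * k + K) * (n : ℝ) ^ (2 * k) ≤ y ^ (K + k) * (n : ℝ) ^ (2 * k) :=
          mul_le_mul_of_nonneg_right (pow_le_pow_of_le_one hy0.le hy1 (by omega)) (by positivity)
      _ ≤ _ := h3

lemma diffCount_self_triangle (A B C : Fin n → Fin n → Bool) :
    diffCount A C ≤ diffCount A B + diffCount B C := by
  classical
  rw [diffCount_eq, diffCount_eq, diffCount_eq]
  refine (Finset.card_le_card fun rc hrc => ?_).trans (Finset.card_union_le _ _)
  have h := (Finset.mem_filter.1 hrc).2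
  rw [Finset.mem_union, Finset.mem_filter, Finset.mem_filter]
  by_cases hAB : A rc.1 rc.2 = B rc.1 rc.2
  · exact Or.inr ⟨Finset.mem_univ _, hAB ▸ h⟩
  · exact Or.inl ⟨Finset.mem_univ _, hAB⟩

/-- Changing few entries destroys few copies. -/
lemma copyCount_le_add (H : Fin k → Fin k → Bool) (A A' : Fin n → Fin n → Bool) :
    copyCount H A' ≤ copyCount H A + k * k * (diffCount A A' * (n ^ (k - 1) * n ^ (k - 1))) := by
  classical
  set X := univ.filter fun p : (Fin k → Fin n) × (Fin k → Fin n) =>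
    StrictMono p.1 ∧ StrictMono p.2 ∧ ∀ i j, A' (p.1 i) (p.2 j) = H i j with hX
  have hXc : copyCount H A' = X.card := by
    rw [copyCount, Nat.card_eq_fintype_card, Fintype.card_subtype]
  set D := univ.filter fun rc : Fin n × Fin n => A rc.1 rc.2 ≠ A' rc.1 rc.2 with hD
  set Y := fun ij : Fin k × Fin k => univ.filter fun p : (Fin k → Fin n) × (Fin k → Fin n) =>
    (p.1 ij.1, p.2 ij.2) ∈ D with hY
  have hYc : ∀ ij, (Y ij).card ≤ D.card * (n ^ (k - 1) * n ^ (k - 1)) := fun ij => by
    have hsub : Y ij ⊆ D.biUnion fun rc => (univ.filter fun f : Fin k → Fin n => f ij.1 = rc.1) ×ˢ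
        (univ.filter fun f : Fin k → Fin n => f ij.2 = rc.2) := fun p hp =>
      Finset.mem_biUnion.2 ⟨_, (Finset.mem_filter.1 hp).2, by simp⟩
    refine (Finset.card_le_card hsub).trans (Finset.card_biUnion_le_card_mul _ _ _ fun rc _ => ?_)
    rw [Finset.card_product]
    have key : ∀ (i : Fin k) (v : Fin n),
        (univ.filter fun f : Fin k → Fin n => f i = v).card ≤ n ^ (k - 1) := fun i v => by
      calc _ ≤ (univ : Finset ({j : Fin k // j ≠ i} → Fin n)).card := by
            refine Finset.card_le_card_of_injOn (fun f j => f j.1) (fun _ _ => Finset.mem_univ _)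
              fun f hf f' hf' h => funext fun j => ?_
            by_cases hj : j = i
            · subst hj
              rw [(Finset.mem_filter.1 (Finset.mem_coe.1 hf)).2,
                (Finset.mem_filter.1 (Finset.mem_coe.1 hf')).2]
            · exact congrFun h ⟨j, hj⟩
        _ = n ^ (k - 1) := by simp
    exact Nat.mul_le_mul (key _ _) (key _ _)
  set good := X.filter fun p => ∀ i j, A (p.1 i) (p.2 j) = H i j with hgood
  have h1 : good.card ≤ copyCount H A := card_le_copyCount _ fun p hp => by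
    obtain ⟨hp1, hp2⟩ := Finset.mem_filter.1 hp
    obtain ⟨-, h1, h2, -⟩ := Finset.mem_filter.1 hp1
    exact ⟨h1, h2, hp2⟩
  have h2 : X ⊆ good ∪ univ.biUnion Y := fun p hp => by
    by_cases h : ∀ i j, A (p.1 i) (p.2 j) = H i j
    · exact Finset.mem_union_left _ (Finset.mem_filter.2 ⟨hp, h⟩)
    · push Not at h
      obtain ⟨i, j, hij⟩ := h
      refine Finset.mem_union_right _ (Finset.mem_biUnion.2 ⟨(i, j), Finset.mem_univ _, ?_⟩)
      simp only [hY, hD, Finset.mem_filter, Finset.mem_univ, true_and]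
      rw [(Finset.mem_filter.1 hp).2.2.2 i j]
      exact hij
  rw [hXc, diffCount_eq]
  refine (Finset.card_le_card h2).trans ((Finset.card_union_le _ _).trans (add_le_add h1 ?_))
  refine (Finset.card_biUnion_le_card_mul _ _ _ fun ij _ => hYc ij).trans (le_of_eq ?_)
  simp [hD]

/-- The bound for matrices near one with few distinct rows. -/
theorem removal_rows (k : ℕ) (H : Fin k → Fin k → Bool) : ∃ c : ℝ, 0 < c ∧ ∃ C : ℕ,
    ∀ n : ℕ, 1 ≤ n → ∀ ε : ℝ, 0 < ε → ε < 1 → ∀ s : ℕ, 1 ≤ s →
      ∀ A A' : Fin n → Fin n → Bool, rowKinds A' ≤ s →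
        (diffCount A A' : ℝ) ≤ c * (ε / s) ^ C * (n : ℝ) ^ 2 → Far H ε A →
          c * (ε / s) ^ C * (n : ℝ) ^ (2 * k) ≤ (copyCount H A : ℝ) := by
  classical
  set K := patSize k with hK
  set e := (K + 1) * (k + 1) with he
  set C := e * (2 * k + K) + K * k + 1 with hC
  set Q0 := 10 * (k + 1) * ((K + 4) * 2 ^ K) ^ (k + 1) with hQ0
  set Λ0 := (2 ^ K) ^ k * K.factorial * k.factorial with hΛ0
  have hQ0p : 0 < Q0 := by positivity
  have hΛ0p : 0 < Λ0 := by positivity
  set c1 : ℝ := (1 / (4 * (Q0 : ℝ))) ^ (2 * k + K) / (Λ0 : ℝ) with hc1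
  have hc1p : 0 < c1 := by positivity
  set c := min (1 / 4 : ℝ) (c1 / (2 * ((k : ℝ) ^ 2 + 1))) with hc
  have hcp : 0 < c := lt_min (by norm_num) (by positivity)
  have hcle : c ≤ 1 / 4 := min_le_left _ _
  have hck : c * ((k : ℝ) ^ 2 + 1) ≤ c1 / 2 := by
    have := min_le_right (1 / 4 : ℝ) (c1 / (2 * ((k : ℝ) ^ 2 + 1)))
    rw [← hc, le_div_iff₀ (by positivity)] at this
    linarith
  refine ⟨c, hcp, C, fun n hn ε hε hε1 s hs A A' hkind hdiff hfar => ?_⟩
  have hs1 : (1 : ℝ) ≤ s := by exact_mod_cast hs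
  set X := ε / (s : ℝ) with hX
  have hX0 : 0 < X := by positivity
  have hXε : X ≤ ε := div_le_self hε.le hs1
  have hn0 : (0 : ℝ) < n := by exact_mod_cast hn
  have hXC : X ^ C ≤ ε := (pow_le_of_le_one hX0.le (hXε.trans hε1.le) (by omega)).trans hXε
  have hfar' : Far H (ε / 2) A' := fun B hB => by
    have h1 := hfar B hB
    have h2 : (diffCount A B : ℝ) ≤ diffCount A A' + diffCount A' B := by
      exact_mod_cast diffCount_self_triangle A A' B
    have h3 : c * X ^ C * (n : ℝ) ^ 2 ≤ ε / 4 * (n : ℝ) ^ 2 := by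
      refine mul_le_mul_of_nonneg_right ?_ (sq_nonneg _)
      calc c * X ^ C ≤ 1 / 4 * ε := mul_le_mul hcle hXC (by positivity) (by norm_num)
        _ = ε / 4 := by ring
    nlinarith
  have hcard : Fintype.card (univ.image A') ≤ s := by
    refine le_trans (le_of_eq ?_) hkind
    rw [Fintype.card_coe, rowKinds, Nat.card_eq_fintype_card, ← Set.toFinset_card,
      Set.toFinset_range]
  have hcore := core (H := H) (A := A') (fun x : univ.image A' => (x : Fin n → Bool))
    (fun r => ⟨A' r, Finset.mem_image_of_mem _ (Finset.mem_univ r)⟩) (fun _ _ => rfl) hcard hn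
    (by linarith : 0 < ε / 2) (by linarith) hfar'
  rw [← hK] at hcore
  have hsK : 1 ≤ s ^ K := Nat.one_le_pow _ _ hs
  have h2s : (s + 1) ^ K ≤ 2 ^ K * s ^ K := by
    rw [← mul_pow]; exact Nat.pow_le_pow_left (by omega) K
  have hQle : scaleQ k s ≤ Q0 * s ^ e := by
    have h1 : kindBound k s + s + 3 ≤ (K + 4) * 2 ^ K * s ^ (K + 1) := by
      have h4 : s ^ K ≤ s ^ (K + 1) := Nat.pow_le_pow_right hs (Nat.le_succ K)
      have h5 : kindBound k s ≤ K * (2 ^ K * s ^ (K + 1)) :=
        Nat.mul_le_mul_left _ (h2s.trans (Nat.mul_le_mul_left _ h4))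
      have h6 : s + 3 ≤ 4 * (2 ^ K * s ^ (K + 1)) := by
        have h7 : s ≤ s ^ (K + 1) := Nat.le_self_pow (Nat.succ_ne_zero K) s
        have h8 : s ^ (K + 1) ≤ 2 ^ K * s ^ (K + 1) :=
          Nat.le_mul_of_pos_left _ (Nat.two_pow_pos K)
        omega
      have h9 : (K + 4) * 2 ^ K * s ^ (K + 1) =
          K * (2 ^ K * s ^ (K + 1)) + 4 * (2 ^ K * s ^ (K + 1)) := by ring
      omega
    calc scaleQ k s ≤ 10 * (k + 1) * ((K + 4) * 2 ^ K * s ^ (K + 1)) ^ (k + 1) :=
          Nat.mul_le_mul_left _ (Nat.pow_le_pow_left h1 _)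
      _ = Q0 * s ^ e := by rw [hQ0, he, mul_pow, ← pow_mul]; ring
  have hΛle : ((s + 1) ^ K) ^ k * K.factorial * k.factorial ≤ Λ0 * s ^ (K * k) := by
    calc ((s + 1) ^ K) ^ k * K.factorial * k.factorial
        ≤ (2 ^ K * s ^ K) ^ k * K.factorial * k.factorial :=
          Nat.mul_le_mul_right _ (Nat.mul_le_mul_right _ (Nat.pow_le_pow_left h2s _))
      _ = Λ0 * s ^ (K * k) := by rw [hΛ0, mul_pow, ← pow_mul s]; ring
  have hy : X ^ e * (1 / (4 * (Q0 : ℝ))) ≤ ε / 2 / (2 * (scaleQ k s : ℝ)) := by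
    have h1 : (scaleQ k s : ℝ) ≤ (Q0 : ℝ) * (s : ℝ) ^ e := by exact_mod_cast hQle
    have hQpos : (0 : ℝ) < scaleQ k s := by
      have : 0 < scaleQ k s := by unfold scaleQ; positivity
      exact_mod_cast this
    have h2 : X ^ e ≤ ε / (s : ℝ) ^ e := by
      rw [hX, div_pow]
      exact div_le_div_of_nonneg_right (pow_le_of_le_one hε.le hε1.le (by positivity))
        (by positivity)
    calc X ^ e * (1 / (4 * (Q0 : ℝ))) ≤ ε / (s : ℝ) ^ e * (1 / (4 * (Q0 : ℝ))) :=
          mul_le_mul_of_nonneg_right h2 (by positivity)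
      _ = ε / (4 * ((Q0 : ℝ) * (s : ℝ) ^ e)) := by field_simp
      _ ≤ ε / (4 * (scaleQ k s : ℝ)) :=
          div_le_div_of_nonneg_left hε.le (by positivity) (by linarith)
      _ = ε / 2 / (2 * (scaleQ k s : ℝ)) := by ring
  have hmain : c1 * X ^ C * (n : ℝ) ^ (2 * k) ≤ (copyCount H A' : ℝ) := by
    have h1 : (X ^ e * (1 / (4 * (Q0 : ℝ)))) ^ (2 * k + K) * (n : ℝ) ^ (2 * k) ≤
        (copyCount H A' : ℝ) * ((Λ0 : ℝ) * (s : ℝ) ^ (K * k)) := by
      refine le_trans (mul_le_mul_of_nonneg_right (pow_le_pow_left₀ (by positivity) hy _)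
        (by positivity)) (hcore.trans ?_)
      refine mul_le_mul_of_nonneg_left ?_ (Nat.cast_nonneg _)
      exact_mod_cast hΛle
    have hsp : (0 : ℝ) < (s : ℝ) ^ (K * k) := by positivity
    have h2 : X ^ C ≤ X ^ (e * (2 * k + K)) / (s : ℝ) ^ (K * k) := by
      have h3 : X ^ (K * k) ≤ 1 / (s : ℝ) ^ (K * k) := by
        rw [hX, div_pow]
        exact div_le_div_of_nonneg_right (pow_le_one₀ hε.le hε1.le) hsp.le
      calc X ^ C ≤ X ^ (e * (2 * k + K) + K * k) :=
            pow_le_pow_of_le_one hX0.le (hXε.trans hε1.le) (Nat.le_succ _)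
        _ ≤ X ^ (e * (2 * k + K)) * (1 / (s : ℝ) ^ (K * k)) := by
            rw [pow_add]; exact mul_le_mul_of_nonneg_left h3 (by positivity)
        _ = _ := by ring
    refine (mul_le_mul_of_nonneg_right (mul_le_mul_of_nonneg_left h2 hc1p.le)
      (by positivity)).trans ?_
    rw [mul_pow, ← pow_mul] at h1
    rw [hc1]
    calc (1 / (4 * (Q0 : ℝ))) ^ (2 * k + K) / (Λ0 : ℝ) *
          (X ^ (e * (2 * k + K)) / (s : ℝ) ^ (K * k)) * (n : ℝ) ^ (2 * k)
        = X ^ (e * (2 * k + K)) * (1 / (4 * (Q0 : ℝ))) ^ (2 * k + K) * (n : ℝ) ^ (2 * k) /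
            ((Λ0 : ℝ) * (s : ℝ) ^ (K * k)) := by ring
      _ ≤ _ := by rw [div_le_iff₀ (by positivity)]; exact h1
  have hpert : (copyCount H A' : ℝ) ≤ copyCount H A +
      (k : ℝ) ^ 2 * ((diffCount A A' : ℝ) * ((n : ℝ) ^ (k - 1) * (n : ℝ) ^ (k - 1))) := by
    rw [sq]; exact_mod_cast copyCount_le_add H A A'
  rcases Nat.eq_zero_or_pos k with rfl | hk
  · have h1 : 1 ≤ copyCount H A := copyCount_pos (r := fun i => i.elim0) (c := fun i => i.elim0)
      (fun i => i.elim0) (fun i => i.elim0) (fun i => i.elim0)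
    have h2 : (1 : ℝ) ≤ copyCount H A := by exact_mod_cast h1
    have h3 : c * X ^ C ≤ 1 := by
      linarith [mul_le_mul hcle hXC (by positivity : (0:ℝ) ≤ X ^ C) (by norm_num)]
    simpa using h3.trans h2
  have hnk : (n : ℝ) ^ 2 * ((n : ℝ) ^ (k - 1) * (n : ℝ) ^ (k - 1)) = (n : ℝ) ^ (2 * k) := by
    rw [← pow_add, ← pow_add]; congr 1; omega
  have hW : 0 ≤ X ^ C * (n : ℝ) ^ (2 * k) := by positivity
  have h5 : (k : ℝ) ^ 2 * ((diffCount A A' : ℝ) * ((n : ℝ) ^ (k - 1) * (n : ℝ) ^ (k - 1))) ≤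
      (k : ℝ) ^ 2 * c * (X ^ C * (n : ℝ) ^ (2 * k)) := by
    refine (mul_le_mul_of_nonneg_left (mul_le_mul_of_nonneg_right hdiff (by positivity))
      (sq_nonneg _)).trans (le_of_eq ?_)
    rw [← hnk]; ring
  have h6 := mul_le_mul_of_nonneg_right hck hW
  have h7 : 0 ≤ c1 * (X ^ C * (n : ℝ) ^ (2 * k)) := mul_nonneg hc1p.le hW
  linarith

lemma copyCount_transpose (H : Fin k → Fin k → Bool) (A : Fin n → Fin n → Bool) :
    copyCount (fun i j => H j i) (fun r c => A c r) = copyCount H A :=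
  Nat.card_congr
    { toFun := fun p => ⟨(p.1.2, p.1.1), p.2.2.1, p.2.1, fun i j => p.2.2.2 j i⟩
      invFun := fun p => ⟨(p.1.2, p.1.1), p.2.2.1, p.2.1, fun i j => p.2.2.2 j i⟩
      left_inv := fun p => rfl
      right_inv := fun p => rfl }

lemma diffCount_transpose (A B : Fin n → Fin n → Bool) :
    diffCount (fun r c => A c r) (fun r c => B c r) = diffCount A B :=
  Nat.card_congr
    { toFun := fun p => ⟨(p.1.2, p.1.1), p.2⟩
      invFun := fun p => ⟨(p.1.2, p.1.1), p.2⟩
      left_inv := fun p => rfl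
      right_inv := fun p => rfl }

/-- The bound for matrices near one with few distinct rows or few distinct columns. -/
theorem removal_few_lines (k : ℕ) (H : Fin k → Fin k → Bool) : ∃ c : ℝ, 0 < c ∧ ∃ C : ℕ,
    ∀ n : ℕ, 1 ≤ n → ∀ ε : ℝ, 0 < ε → ε < 1 → ∀ s : ℕ, 1 ≤ s →
      ∀ A A' : Fin n → Fin n → Bool,
        (rowKinds A' ≤ s ∨ rowKinds (fun r c => A' c r) ≤ s) →
        (diffCount A A' : ℝ) ≤ c * (ε / s) ^ C * (n : ℝ) ^ 2 → Far H ε A →
          c * (ε / s) ^ C * (n : ℝ) ^ (2 * k) ≤ (copyCount H A : ℝ) := by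
  obtain ⟨c1, hc1, C1, h1⟩ := removal_rows k H
  obtain ⟨c2, hc2, C2, h2⟩ := removal_rows k fun i j => H j i
  refine ⟨min c1 c2, lt_min hc1 hc2, max C1 C2,
    fun n hn ε hε hε1 s hs A A' hk hdiff hfar => ?_⟩
  have hs1 : (1 : ℝ) ≤ s := by exact_mod_cast hs
  have hX0 : 0 ≤ ε / s := by positivity
  have hX1 : ε / s ≤ 1 := (div_le_self hε.le hs1).trans hε1.le
  have key : ∀ ci Ci, 0 < ci → min c1 c2 ≤ ci → Ci ≤ max C1 C2 →
      min c1 c2 * (ε / s) ^ max C1 C2 ≤ ci * (ε / s) ^ Ci := fun ci Ci hci h h' =>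
    mul_le_mul h (pow_le_pow_of_le_one hX0 hX1 h') (by positivity) hci.le
  rcases hk with hk | hk
  · have k1 := key c1 C1 hc1 (min_le_left _ _) (le_max_left _ _)
    exact (mul_le_mul_of_nonneg_right k1 (by positivity)).trans (h1 n hn ε hε hε1 s hs A A' hk
      (hdiff.trans (mul_le_mul_of_nonneg_right k1 (by positivity))) hfar)
  · have k2 := key c2 C2 hc2 (min_le_right _ _) (le_max_right _ _)
    rw [← copyCount_transpose H A]
    refine (mul_le_mul_of_nonneg_right k2 (by positivity)).trans (h2 n hn ε hε hε1 s hs _ _ hk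
      ?_ fun B hB => ?_)
    · rw [diffCount_transpose]
      exact hdiff.trans (mul_le_mul_of_nonneg_right k2 (by positivity))
    · have h3 := hfar (fun r c => B c r) (by
        rw [← copyCount_transpose (fun i j => H j i) B] at hB; exact hB)
      rwa [← diffCount_transpose] at h3

end Vale.Agent.P037
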