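import Mathlib

/-!
Cleaning of a labelled sequence: deleting few positions so that every weakly increasing tuple of
the remaining positions has many strictly increasing companions with the same labels.
-/

namespace Vale.Agent.P037

open Finset

/-- The first `g` elements of a finite set of a linear order, or all of it. -/
lemma exists_firsts {β : Type*} [LinearOrder β] (O : Finset β) (g : ℕ) :
    ∃ F ⊆ O, F.card ≤ g ∧ (F = O ∨ F.card = g) ∧ ∀ a ∈ F, ∀ b ∈ O \ F, a < b := by
  induction g with
  | zero => exact ⟨∅, Finset.empty_subset _, le_rfl, Or.inr rfl, by simp⟩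
  | succ g ih =>
    obtain ⟨F, hF, hc, h1, h2⟩ := ih
    by_cases hne : (O \ F).Nonempty
    · set m := (O \ F).min' hne with hm
      obtain ⟨hmO, hmF⟩ := Finset.mem_sdiff.1 (Finset.min'_mem _ hne)
      refine ⟨insert m F, Finset.insert_subset hmO hF, ?_, Or.inr ?_, ?_⟩
      · exact (Finset.card_insert_le _ _).trans (by omega)
      · rw [Finset.card_insert_of_notMem hmF]
        rcases h1 with h1 | h1
        · subst h1; simp at hne
        · omega
      · intro a ha b hb
        obtain ⟨hbO, hbF⟩ := Finset.mem_sdiff.1 hb
        rw [Finset.mem_insert, not_or] at hbF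
        rcases Finset.mem_insert.1 ha with rfl | ha
        · exact lt_of_le_of_ne (Finset.min'_le _ _ (Finset.mem_sdiff.2 ⟨hbO, hbF.2⟩))
            (Ne.symm hbF.1)
        · exact h2 a ha b (Finset.mem_sdiff.2 ⟨hbO, hbF.2⟩)
    · refine ⟨F, hF, hc.trans (Nat.le_succ g), Or.inl ?_, h2⟩
      rw [Finset.not_nonempty_iff_eq_empty, Finset.sdiff_eq_empty_iff_subset] at hne
      exact Finset.Subset.antisymm hF hne

/-- Positions can be deleted so that every weakly increasing `m`-tuple of the remaining ones,
all at least `t`, has `g` choices for each entry with the same label, increasing from entry to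
entry. -/
theorem peel {α : Type*} [Fintype α] [DecidableEq α] {n : ℕ} (σ : Fin n → α) (g : ℕ) :
    ∀ (m t : ℕ), ∃ D : Finset (Fin n), D.card ≤ m * (Fintype.card α + 1) ^ m * g ∧
      ∀ p : Fin m → Fin n, Monotone p → (∀ i, p i ∉ D) → (∀ i, t ≤ (p i : ℕ)) →
        ∃ S : Fin m → Finset (Fin n), (∀ i, g ≤ (S i).card) ∧
          (∀ i, ∀ a ∈ S i, σ a = σ (p i) ∧ t ≤ (a : ℕ)) ∧
          ∀ i j, i < j → ∀ a ∈ S i, ∀ b ∈ S j, a < b := by
  intro m
  induction m with
  | zero =>
    exact fun t => ⟨∅, by simp, fun p _ _ _ => ⟨fun i => i.elim0, fun i => i.elim0,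
      fun i => i.elim0, fun i => i.elim0⟩⟩
  | succ m ih =>
    intro t
    set O : α → Finset (Fin n) := fun x => univ.filter fun r => t ≤ (r : ℕ) ∧ σ r = x with hO
    choose F hFO hFg hFor hFlt using fun x => exists_firsts (O x) g
    set q : α → ℕ := fun x => max t ((F x).sup fun a => (a : ℕ) + 1) with hq
    choose D' hD' hgood using ih
    refine ⟨univ.biUnion fun x => F x ∪ D' (q x), ?_, fun p hp hpD hpt => ?_⟩
    · set s := Fintype.card α with hs
      refine (Finset.card_biUnion_le_card_mul _ _ (g + m * (s + 1) ^ m * g) fun x _ =>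
        (Finset.card_union_le _ _).trans (add_le_add (hFg x) (hD' _))).trans ?_
      rw [Finset.card_univ, ← hs]
      calc s * (g + m * (s + 1) ^ m * g)
          ≤ (s + 1) * ((s + 1) ^ m * g + m * (s + 1) ^ m * g) := by
            refine Nat.mul_le_mul (Nat.le_succ s) (add_le_add ?_ le_rfl)
            exact Nat.le_mul_of_pos_left g (Nat.pow_pos (Nat.succ_pos s))
        _ = (m + 1) * (s + 1) ^ (m + 1) * g := by ring
    · set x := σ (p 0) with hx
      have hpO : p 0 ∈ O x := by simp [hO, hpt 0, hx]
      have hout : ∀ i, p i ∉ F x ∧ p i ∉ D' (q x) := fun i => by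
        have := hpD i
        simp only [Finset.mem_biUnion, Finset.mem_univ, true_and, Finset.mem_union, not_exists,
          not_or] at this
        exact this x
      have hcard : (F x).card = g := (hFor x).resolve_left fun h => (hout 0).1 (h ▸ hpO)
      have hgt : ∀ a ∈ F x, a < p 0 := fun a ha =>
        hFlt x a ha _ (Finset.mem_sdiff.2 ⟨hpO, (hout 0).1⟩)
      have hge : ∀ i, q x ≤ (p i : ℕ) := fun i => by
        refine max_le (hpt i) (Finset.sup_le fun a ha => ?_)
        have h1 : (p 0 : ℕ) ≤ p i := hp (Fin.zero_le i)
        have h2 : (a : ℕ) < p 0 := hgt a ha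
        omega
      obtain ⟨S, hS1, hS2, hS3⟩ := hgood (q x) (fun i => p i.succ)
        (fun i j hij => hp (Fin.succ_le_succ_iff.2 hij)) (fun i => (hout _).2) (fun i => hge _)
      refine ⟨Fin.cons (F x) S, fun i => ?_, fun i => ?_, fun i j hij => ?_⟩
      · cases i using Fin.cases with
        | zero => simpa using hcard.ge
        | succ i => simpa using hS1 i
      · cases i using Fin.cases with
        | zero =>
          intro a ha
          have := hFO x (by simpa using ha)
          simp only [hO, Finset.mem_filter] at this
          exact ⟨this.2.2, this.2.1⟩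
        | succ i =>
          intro a ha
          obtain ⟨h1, h2⟩ := hS2 i a (by simpa using ha)
          exact ⟨h1, (le_max_left _ _).trans h2⟩
      · cases j using Fin.cases with
        | zero => exact absurd hij (Fin.not_lt_zero i)
        | succ j =>
          cases i using Fin.cases with
          | zero =>
            intro a ha b hb
            simp only [Fin.cons_zero] at ha
            simp only [Fin.cons_succ] at hb
            have h1 : (a : ℕ) + 1 ≤ (F x).sup fun a => (a : ℕ) + 1 :=
              Finset.le_sup (f := fun a : Fin n => (a : ℕ) + 1) ha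
            have h2 : q x ≤ (b : ℕ) := (hS2 j b hb).2
            have h3 : (F x).sup (fun a => (a : ℕ) + 1) ≤ q x := le_max_right _ _
            show (a : ℕ) < b
            omega
          | succ i =>
            intro a ha b hb
            simp only [Fin.cons_succ] at ha hb
            exact hS3 i j (Fin.succ_lt_succ_iff.1 hij) a ha b hb

end Vale.Agent.P037
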